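import Vale.Agent.P209.Main

namespace Vale.Agent.Results.P209.Explicit

open Vale.Agent.P209

theorem result (n : ℕ) (hn : 1 ≤ n) :
    (∀ (k : ℕ) (r : Fin k → ℝ) (R : ℝ), 0 < R → (∀ i, 0 < r i) →
      ∑ i, r i ^ n < R ^ n → (∀ i j, i ≠ j → r i + r j < R) →
      (k ≤ 2 ^ n ∨ ∃ i₀, (∀ i, r i ≤ r i₀) ∧
        r i₀ ^ n + 4 ^ n * ∑ i ∈ Finset.univ.erase i₀, r i ^ n < R ^ n) →
      Packs n r R) ∧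
    ∀ ε : ℝ, 0 < ε → ∃ δ : ℝ, 0 < δ ∧
      ∀ (k : ℕ) (r : Fin k → ℝ) (R : ℝ) (i₀ : Fin k), 0 < R → (∀ i, 0 < r i) →
        (∀ i, i ≠ i₀ → r i ≤ δ * R) → ∑ i, r i ^ n ≤ (1 - ε) * R ^ n → Packs n r R :=
  ⟨fun _ _ _ hR hr hv h2 h => packs_ab hn hR hr hv h2 h, fun _ hε => packs_c hn hε⟩

end Vale.Agent.Results.P209.Explicit
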